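import Vale.Agent.P174.Final2

/-!
# P174: Howie's conjecture is a property of the finitely generated non-indicable subgroups,
and it implies the solvability of all systems whose content has an acyclic covering
-/

open Vale.Agent.P174

namespace Vale.Agent.Results.P174.ContentCriterion

universe u

theorem result :
    (∀ (G : Type u) [Group G],
      (∀ H : Subgroup G, H.FG →
        MapsOntoInt H ∨ (∀ a b : H, a * b = b * a) ∨ Q1 H) →
      Q1 G ∧
      (∀ (m n : ℕ) (w : Fin m → Monoid.Coprod G (FreeGroup (Fin n))),
        HasAcyclicCover ℚ w → SolvableOver w) ∧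
      (∀ (n : ℕ) (w : Monoid.Coprod G (FreeGroup (Fin n))), content w ≠ 1 →
        SolvableOver (fun _ : Fin 1 => w))) ∧
    (∀ (G : Type u) [Group G] (N : Subgroup G) [N.Normal],
      (Q1 N ∨ ∀ a b : N, a * b = b * a) → LocallyIndicable (G ⧸ N) → Q1 G) ∧
    (∀ (p : ℕ) [Fact p.Prime] (G : Type u) [Group G],
      (∀ H : Subgroup G, H.FG → MapsOntoZMod p H ∨ Q1mod p H) →
      Q1mod p G ∧
      (∀ (m n : ℕ) (w : Fin m → Monoid.Coprod G (FreeGroup (Fin n))),
        HasAcyclicCover (ZMod p) w → SolvableOver w)) := by
  refine ⟨fun G _ h => content_criterion h, ?_, fun p _ G _ h => content_criterion_mod p h⟩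
  rintro G _ N _ (hN | hN) hq
  · exact q1_extension N hN hq
  · exact q1_extension N (q1_of_comm hN) hq

end Vale.Agent.Results.P174.ContentCriterion
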