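import Vale.Agent.P174.Final

/-!
# P174: a local criterion for Howie's conjecture

Every nonsingular finite system over `G` is solvable over `G` as soon as the same is true for
those finitely generated subgroups of `G` that do not map onto the infinite cyclic group.
-/

open Vale.Agent.P174

namespace Vale.Agent.Results.P174.LocalCriterion

universe u

theorem result :
    (∀ (G : Type u) [Group G],
      (∀ H : Subgroup G, H.FG → ¬ MapsOntoInt H → Q1 H) → Q1 G) ∧
    (∀ (G : Type u) [Group G] (N : Subgroup G) [N.Normal],
      Q1 N → LocallyIndicable (G ⧸ N) → Q1 G) ∧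
    (∀ (p : ℕ) [Fact p.Prime] (G : Type u) [Group G],
      (∀ H : Subgroup G, H.FG → ¬ MapsOntoZMod p H → Q1mod p H) → Q1mod p G) ∧
    (∀ (p : ℕ) [Fact p.Prime] (G : Type u) [Group G] (N : Subgroup G) [N.Normal],
      Q1mod p N → LocallyPIndicable p (G ⧸ N) → Q1mod p G) :=
  ⟨fun _ _ h => q1_of_local h, fun _ _ N _ hN hq => q1_extension N hN hq,
    fun p _ _ _ h => q1mod_of_local p h, fun p _ _ _ N _ hN hq => q1mod_extension p N hN hq⟩

end Vale.Agent.Results.P174.LocalCriterion
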